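import Vale.Agent.P024.H566.ALL.B2

/-!
Block (B) of the blocks for all number fields: only finitely many primes are mapped above `r₂`.
-/

namespace Vale.Agent.P024.H566.AllB

open scoped NumberField
open IsDedekindDomain NumberField Vale.Agent.P024 Vale.Agent.P024.M4 Vale.Agent.P024.ALL Finset

universe u v

/-- **Block (B)**, literal, from (TH). -/
theorem propB_of_TH (hTH : PropTH.{v}) : PropB.{u, v} := by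
  intro E₁ E₂ _ _ _ _ _ _ _ hE₂ F _ a ha hopen hmax
  classical
  have hgal : IsGalois ℚ E₁ := H157.isGalois_closed
  have hindex := index_ne_zero_of_open _ (isOpen_fix F)
  obtain ⟨H₀, hH₀n, hH₀o, h₀⟩ := exists_open_normal _ (isOpen_fix F)
  have hfin : Finite ((E₁ ≃ₐ[ℚ] E₁) ⧸ H₀) := Subgroup.quotient_finite_of_isOpen H₀ hH₀o
  have hft := Fintype.ofFinite ((E₁ ≃ₐ[ℚ] E₁) ⧸ H₀)
  choose c hc hc1 using exists_c hE₂ F a ha hopen hmax H₀ hH₀o h₀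
  -- the finite set of elements
  obtain ⟨V, hV, hVo, B, hB, hB'⟩ := hTH E₂ hE₂
    (Finset.univ.image fun q : (E₁ ≃ₐ[ℚ] E₁) ⧸ H₀ => c q.out) (by
      intro x hx
      obtain ⟨q, -, rfl⟩ := Finset.mem_image.1 hx
      exact hc1 _)
  -- the prime number
  obtain ⟨p, hp, hpB⟩ : ∃ p : ℕ, p.Prime ∧ p ∉ B ∪ {2} := by
    obtain ⟨p, hp, hp'⟩ := (Nat.infinite_setOfPred_prime.sdiff
      (hB.union (Set.finite_singleton 2))).nonempty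
    exact ⟨p, hp, hp'⟩
  have hpf : Fact p.Prime := ⟨hp⟩
  have hpB1 : p ∉ B := fun h => hpB (Or.inl h)
  have hp2 : p ≠ 2 := fun h => hpB (Or.inr h)
  refine ⟨V, hV, hVo, {p}, Set.finite_singleton p, ?_⟩
  intro r₂ hr₂ hr₂p hsplit
  by_contra hinf
  have hinf' : {v | Hit a v r₂}.Infinite := hinf
  obtain ⟨H, hHn, hHo, hHle, aH, haH, hindexH⟩ := exists_H F a ha hopen H₀ hH₀o h₀ V hVo
  -- the data
  have hsub : Infinite {v | Hit a v r₂} := hinf'.to_subtype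
  obtain ⟨w₀⟩ := hsub.nonempty
  obtain ⟨-, O₀, -, hO₀, -, -, hr₂O₀⟩ := w₀.2
  have key : ∀ v : {v | Hit a v r₂}, ∃ (O : ValuationSubring E₁) (O₂ : ValuationSubring E₂)
      (r : ℕ) (φ : E₁ ≃ₐ[ℚ] E₁) (τ : E₂ ≃ₐ[ℚ] E₂), IsCenter O v.1 ∧ O₂ ≠ ⊤ ∧
      (r₂ : E₂) ∈ O₂.nonunits ∧ r.Prime ∧ (r : E₁) ∈ O.nonunits ∧ Stab O φ ∧ ActsPow O φ r ∧
      (∀ s, Stab O s → Stab O₂ (a s)) ∧ (∀ x, τ x ∈ O₂ ↔ x ∈ O₀) := by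
    rintro ⟨v, O, O₂, hO, hO₂, hOv, hst, hrO₂⟩
    obtain ⟨r, φ, hr, hrO, hφ, hφ'⟩ := H114.frobQ O hO
    obtain ⟨τ, hτ⟩ := exists_conj_of_mem O₀ O₂ hO₀ hO₂ hr₂ hr₂O₀ hrO₂
    exact ⟨O, O₂, r, φ, τ, hOv, hO₂, hrO₂, hr, hrO, hφ, hφ', hst, hτ⟩
  choose O O₂ r φ τ h1 h2 h3 h4 h5 h6 h7 h8 h9 using key
  have hf1 : Finite ((E₁ ≃ₐ[ℚ] E₁) ⧸ H) := Subgroup.quotient_finite_of_isOpen H hHo
  have hf2 : Finite ((E₂ ≃ₐ[ℚ] E₂) ⧸ V) := Subgroup.quotient_finite_of_isOpen V hVo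
  obtain ⟨y, hy⟩ := Finite.exists_infinite_fiber (fun v : {v | Hit a v r₂} =>
    ((QuotientGroup.mk (φ v) : (E₁ ≃ₐ[ℚ] E₁) ⧸ H), (QuotientGroup.mk (τ v) : (E₂ ≃ₐ[ℚ] E₂) ⧸ V)))
  obtain ⟨w, hw⟩ := hy.nonempty
  obtain rfl : _ = y := hw
  -- the character
  set f := φ w with hfdef
  have hfq : ((f : (E₁ ≃ₐ[ℚ] E₁) ⧸ H₀).out)⁻¹ * f ∈ H₀ := by
    rw [← QuotientGroup.eq, QuotientGroup.out_eq']
  have hk : kk F.fixingSubgroup (f : (E₁ ≃ₐ[ℚ] E₁) ⧸ H₀).out = kk F.fixingSubgroup f :=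
    kk_congr hindex h₀ hfq
  have hcf : c (f : (E₁ ≃ₐ[ℚ] E₁) ⧸ H₀).out ∈ CC a h₀ f (kk F.fixingSubgroup f) := by
    have h := hc (f : (E₁ ≃ₐ[ℚ] E₁) ⧸ H₀).out
    rw [hk] at h
    unfold CC at h ⊢
    rwa [Nphi_congr (resH h₀ (aG a)) hfq] at h
  obtain ⟨θ, hθ, hθ', hθ''⟩ := hB' p hpB1 r₂ hr₂ (fun h => hr₂p h) (O₂ w) (h2 w) (h3 w)
    (fun s hs => hsplit _ (h2 w) (h3 w) s hs) (c (f : (E₁ ≃ₐ[ℚ] E₁) ⧸ H₀).out)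
    (Finset.mem_image.2 ⟨_, Finset.mem_univ _, rfl⟩)
  refine hθ'' (core F a ha H₀ h₀ H hHo hHle V aH haH hindexH hp2 f θ hθ
    (Subtype.val '' {v : {v | Hit a v r₂} | ((QuotientGroup.mk (φ v) : (E₁ ≃ₐ[ℚ] E₁) ⧸ H),
      (QuotientGroup.mk (τ v) : (E₂ ≃ₐ[ℚ] E₂) ⧸ V)) = (QuotientGroup.mk (φ w),
      QuotientGroup.mk (τ w))}) ?_ ?_ _ hcf)
  · exact (Set.infinite_coe_iff.mp hy).image (Subtype.val_injective.injOn)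
  · rintro _ ⟨v, hv, rfl⟩
    have hv' := Prod.mk.inj (show _ = _ from hv)
    refine ⟨O v, O₂ v, r v, φ v, h1 v, h4 v, h5 v, h6 v, h7 v, QuotientGroup.eq.mp hv'.1, h8 v,
      ?_, fun s hs => hsplit _ (h2 v) (h3 v) s hs⟩
    intro y hy
    -- `g = τ v (τ w)⁻¹ ∈ V` maps `O₂ w` onto `O₂ v`
    have hg1 : τ w * (τ v)⁻¹ ∈ V := by
      have h := hV.conj_mem _ (QuotientGroup.eq.mp hv'.2.symm) (τ v)
      have h10 := hV.conj_mem _ (QuotientGroup.eq.mp hv'.2) (τ v)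
      rwa [mul_inv_cancel_left] at h10
    have hst : Stab (O₂ w) ((τ w * (τ v)⁻¹) * (y : E₂ ≃ₐ[ℚ] E₂) * (τ w * (τ v)⁻¹)⁻¹) := by
      have hτw : ∀ x, (τ w)⁻¹ x ∈ O₀ ↔ x ∈ O₂ w := by
        intro x
        rw [← h9 w, ← AlgEquiv.mul_apply, mul_inv_cancel, AlgEquiv.one_apply]
      have hτv : ∀ x, (τ v)⁻¹ x ∈ O₀ ↔ x ∈ O₂ v := by
        intro x
        rw [← h9 v, ← AlgEquiv.mul_apply, mul_inv_cancel, AlgEquiv.one_apply]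
      intro x
      rw [mul_inv_rev, inv_inv]
      rw [AlgEquiv.mul_apply, AlgEquiv.mul_apply, AlgEquiv.mul_apply, AlgEquiv.mul_apply]
      rw [h9 w, hτv, hy, h9 v, hτw]
    have h10 := hθ' ⟨_, hV.conj_mem _ y.2 (τ w * (τ v)⁻¹)⟩ hst
    rw [← h10]
    have h11 : (⟨(τ w * (τ v)⁻¹) * (y : E₂ ≃ₐ[ℚ] E₂) * (τ w * (τ v)⁻¹)⁻¹,
        hV.conj_mem _ y.2 (τ w * (τ v)⁻¹)⟩ : V) = ⟨_, hg1⟩ * y * ⟨_, hg1⟩⁻¹ := rfl
    rw [h11, map_mul θ, map_mul θ, map_inv θ, mul_right_comm, mul_inv_cancel, one_mul]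

end Vale.Agent.P024.H566.AllB
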