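import Vale.Agent.P024.ALL.Spec
import Vale.Agent.P024.M4.Asm4

/-!
Block (B) of the blocks for all number fields: preparations.
-/

namespace Vale.Agent.P024.H566.AllB

open scoped NumberField
open IsDedekindDomain NumberField Vale.Agent.P024 Vale.Agent.P024.M4 Vale.Agent.P024.ALL

universe u v

/-- An open subgroup is not trivial. -/
theorem open_ne_bot {E : Type v} [Field E] [CharZero E] [IsGalois ℚ E] (hE : SolvablyClosed E)
    (W : Subgroup (E ≃ₐ[ℚ] E)) (hW : IsOpen (W : Set (E ≃ₐ[ℚ] E))) : W ≠ ⊥ := by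
  rintro rfl
  obtain ⟨c₁, c₂, hc₁, hc₂, hne⟩ := H252.cc2 hE
  obtain ⟨h11, h12⟩ := H252.cc_sq hE hc₁
  have hd : DiscreteTopology (E ≃ₐ[ℚ] E) := by
    refine discreteTopology_of_isOpen_singleton_one ?_
    rwa [Subgroup.coe_bot] at hW
  have hn : ∀ w ∈ (⊥ : Subgroup (E ≃ₐ[ℚ] E)), ∀ x ∈ Subgroup.zpowers c₁,
      w * x * w⁻¹ ∈ Subgroup.zpowers c₁ := by
    intro w hw x hx
    rw [Subgroup.mem_bot] at hw
    rw [hw, one_mul, inv_one, mul_one]
    exact hx
  have hb : Subgroup.zpowers c₁ ≠ ⊥ := by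
    rw [Ne, Subgroup.zpowers_eq_bot]
    exact h12
  obtain ⟨x, hx, y, hy, hxy⟩ := H409.propCOMM E hE ⊥ (Subgroup.zpowers c₁) (Subgroup.zpowers c₁)
    hW (isClosed_discrete _) (isClosed_discrete _) hn hn hb hb
  obtain ⟨i, rfl⟩ := Subgroup.mem_zpowers_iff.1 hx
  obtain ⟨j, rfl⟩ := Subgroup.mem_zpowers_iff.1 hy
  exact hxy (by rw [← zpow_add, ← zpow_add, add_comm])

/-- A rational number is in a valuation ring above `r` if and only if `r` does not divide its
denominator. -/
theorem rat_mem_iff {E : Type*} [Field E] [CharZero E] (O : ValuationSubring E) {r : ℕ}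
    (hr : r.Prime) (hrO : (r : E) ∈ O.nonunits) (x : ℚ) :
    algebraMap ℚ E x ∈ O ↔ ¬ r ∣ x.den := by
  have hx : algebraMap ℚ E x = (x.num : E) * ((x.den : E)⁻¹) := by
    have h1 : algebraMap ℚ E x = (x : E) := by simp
    rw [h1, Rat.cast_def, div_eq_mul_inv]
  have hunit : ∀ n : ℤ, ¬ (r : ℤ) ∣ n → O.valuation (n : E) = 1 := by
    intro n hn
    refine le_antisymm ((O.valuation_le_one_iff _).2 (intCast_mem O n)) ?_
    by_contra hlt
    rw [not_le] at hlt
    have hc : IsCoprime (r : ℤ) n :=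
      (Int.isCoprime_iff_gcd_eq_one).2 (by
        rw [Int.gcd_comm]
        exact ((Nat.Prime.coprime_iff_not_dvd hr).2 (fun h => hn (by
          rw [← Int.natAbs_dvd_natAbs]
          simpa using h))).symm)
    obtain ⟨a, b, hab⟩ := hc
    have h1 : ((a : ℤ) : E) * (r : E) + ((b : ℤ) : E) * (n : E) = 1 := by
      have := congrArg (Int.cast : ℤ → E) hab
      push_cast at this
      exact this
    have h2 : O.valuation (((a : ℤ) : E) * (r : E)) < 1 := by
      rw [map_mul]
      exact lt_of_le_of_lt (mul_le_of_le_one_left' ((O.valuation_le_one_iff _).2 (intCast_mem O a)))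
        ((ValuationSubring.mem_nonunits_iff _).1 hrO)
    have h3 : O.valuation (((b : ℤ) : E) * (n : E)) < 1 := by
      rw [map_mul]
      exact lt_of_le_of_lt (mul_le_of_le_one_left' ((O.valuation_le_one_iff _).2 (intCast_mem O b)))
        hlt
    have h4 := O.valuation.map_add_lt h2 h3
    rw [h1, map_one] at h4
    exact lt_irrefl _ h4
  constructor
  · intro hO hdvd
    have hnum : ¬ (r : ℤ) ∣ x.num := by
      intro h
      have h1 : r ∣ x.num.natAbs := by
        rw [← Int.natAbs_dvd_natAbs] at h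
        simpa using h
      have h2 := x.reduced
      exact Nat.Prime.not_coprime_iff_dvd.2 ⟨r, hr, h1, hdvd⟩ h2
    rw [← ValuationSubring.valuation_le_one_iff, hx, map_mul, hunit _ hnum, one_mul, map_inv₀] at hO
    have h1 : O.valuation (x.den : E) < 1 := by
      obtain ⟨m, hm⟩ := hdvd
      rw [hm, Nat.cast_mul, map_mul]
      exact lt_of_le_of_lt (mul_le_of_le_one_right' ((O.valuation_le_one_iff _).2
        (natCast_mem O m))) ((ValuationSubring.mem_nonunits_iff _).1 hrO)
    have h2 : O.valuation (x.den : E) ≠ 0 := by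
      rw [Valuation.ne_zero_iff]
      exact_mod_cast x.den_pos.ne'
    exact absurd ((one_lt_inv₀ (zero_lt_iff.2 h2)).2 h1) (not_lt.2 hO)
  · intro hdvd
    have h1 : O.valuation (x.den : E) = 1 := by
      have h2 := hunit (x.den : ℤ) (fun h => hdvd (by exact_mod_cast h))
      simpa using h2
    rw [← ValuationSubring.valuation_le_one_iff, hx, map_mul, map_inv₀, h1, inv_one, mul_one,
      ValuationSubring.valuation_le_one_iff]
    exact intCast_mem O _

variable {E₁ : Type u} {E₂ : Type v} [Field E₁] [CharZero E₁] [IsAlgClosed E₁]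
  [Algebra.IsAlgebraic ℚ E₁] [Field E₂] [CharZero E₂] [IsGalois ℚ E₂]

omit [IsAlgClosed E₁] [Algebra.IsAlgebraic ℚ E₁] in
/-- Two valuation rings above `r` are conjugate. -/
theorem exists_conj_of_mem (O O' : ValuationSubring E₂) (hO : O ≠ ⊤) (hO' : O' ≠ ⊤) {r : ℕ}
    (hr : r.Prime) (hrO : (r : E₂) ∈ O.nonunits) (hrO' : (r : E₂) ∈ O'.nonunits) :
    ∃ g : E₂ ≃ₐ[ℚ] E₂, ∀ x, g x ∈ O' ↔ x ∈ O :=
  exists_conj (M := ℚ) O O' hO hO' fun x => by
    rw [rat_mem_iff O hr hrO, rat_mem_iff O' hr hrO']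

/-- The group `C_φ` is not trivial. -/
theorem exists_c (hE₂ : SolvablyClosed E₂) (F : IntermediateField ℚ E₁) [NumberField F]
    (a : (E₁ ≃ₐ[F] E₁) →* (E₂ ≃ₐ[ℚ] E₂)) (ha : Continuous a) (hopen : IsOpen (Set.range a))
    (hmax : ∀ g b, Rel a g b → g ∈ F.fixingSubgroup)
    (H₀ : Subgroup (E₁ ≃ₐ[ℚ] E₁)) [hH₀ : H₀.Normal] (hHo : IsOpen (H₀ : Set (E₁ ≃ₐ[ℚ] E₁)))
    (h₀ : H₀ ≤ F.fixingSubgroup) (f : E₁ ≃ₐ[ℚ] E₁) :
    ∃ c ∈ CC a h₀ f (kk F.fixingSubgroup f), c ≠ 1 := by
  have hgal : IsGalois ℚ E₁ := H157.isGalois_closed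
  have hindex := index_ne_zero_of_open _ (isOpen_fix F)
  have key : CC a h₀ f (kk F.fixingSubgroup f) ≠ ⊥ := by
    by_cases hq : 2 ≤ kk F.fixingSubgroup f
    · exact (H157.claim_field H409.propCOMM hE₂ F a ha hopen hmax H₀ hHo h₀
        f (kk F.fixingSubgroup f) hq (fun j h0 hj => kk_min hindex f h0 hj)
        (resH h₀ (aG a)) rfl).2.2.2
    · have hk1 : kk F.fixingSubgroup f = 1 := by
        have := (kk_spec hindex f).1
        omega
      have hca' : Continuous (aG a) := ha.comp (H157.continuous_fixEquiv F)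
      have hra' : IsOpen (Set.range (aG a)) := by
        have : Set.range (aG a) = Set.range a := by
          ext y
          constructor
          · rintro ⟨x, rfl⟩
            exact ⟨_, rfl⟩
          · rintro ⟨x, rfl⟩
            exact ⟨F.fixingSubgroupEquiv.symm x,
              congrArg a (F.fixingSubgroupEquiv.apply_symm_apply x)⟩
        rw [this]
        exact hopen
      have h1 := H157.img_open _ (isOpen_fix F) (aG a) hca' hra' H₀ hHo h₀
      refine open_ne_bot hE₂ _ ?_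
      convert h1 using 1
      ext y
      constructor
      · rintro ⟨x, -, rfl⟩
        exact ⟨Subgroup.inclusion h₀ x, x.2, rfl⟩
      · rintro ⟨x, hx, rfl⟩
        refine ⟨⟨x, hx⟩, ?_, rfl⟩
        rw [SetLike.mem_coe, mem_Nphi]
        intro j h0 hj
        omega
  obtain ⟨c, hc⟩ := Subgroup.ne_bot_iff_exists_ne_one.1 key
  exact ⟨c.1, c.2, fun h => hc (Subtype.ext h)⟩

end Vale.Agent.P024.H566.AllB
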