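import Vale.Agent.P024.H566.ALL.B1

/-!
Block (B) of the blocks for all number fields: the relation.
-/

namespace Vale.Agent.P024.H566.AllB

open scoped NumberField
open IsDedekindDomain NumberField Vale.Agent.P024 Vale.Agent.P024.M4 Vale.Agent.P024.ALL Finset

universe u v

section abs

variable {S A : Type*} [Group S] [CommGroup A] {V : Subgroup S} [hV : V.Normal]

/-- the action of `c - 1` -/
theorem act_sub_one (c : S) (θ : V →* A) (y : V) :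
    M4.act (MonoidAlgebra.of ℤ _ (c : S ⧸ V) - 1) θ y = H566.act c θ y / θ y := by
  apply Additive.ofMul.injective
  have h1 : (1 : MonoidAlgebra ℤ (S ⧸ V)) = MonoidAlgebra.of ℤ _ ((1 : S) : S ⧸ V) := by
    rw [QuotientGroup.mk_one, map_one]
  rw [← actHom_apply, map_sub, actHom_of, h1, actHom_of, H566.act_one]
  rfl

theorem act_pow (c : S) (θ : V →* A) (m : ℕ) : H566.act c (θ ^ m) = H566.act c θ ^ m := by
  ext y
  rw [MonoidHom.pow_apply]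
  rfl

end abs

variable {E₁ : Type u} {E₂ : Type v} [Field E₁] [CharZero E₁] [IsAlgClosed E₁]
  [Algebra.IsAlgebraic ℚ E₁] [Field E₂] [CharZero E₂] [IsGalois ℚ E₂]

/-- **The relation.** -/
theorem core (F : IntermediateField ℚ E₁) [NumberField F]
    (a : (E₁ ≃ₐ[F] E₁) →* (E₂ ≃ₐ[ℚ] E₂)) (ha : Continuous a)
    (H₀ : Subgroup (E₁ ≃ₐ[ℚ] E₁)) [hH₀ : H₀.Normal] (h₀ : H₀ ≤ F.fixingSubgroup)
    (H : Subgroup (E₁ ≃ₐ[ℚ] E₁)) [hH : H.Normal] (hHo : IsOpen (H : Set (E₁ ≃ₐ[ℚ] E₁)))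
    (hHle : H ≤ H₀) (V : Subgroup (E₂ ≃ₐ[ℚ] E₂)) [hV : V.Normal] (aH : H →* V)
    (haH : ∀ x : H, ∃ s : E₁ ≃ₐ[F] E₁, s.restrictScalars ℚ = (x : E₁ ≃ₐ[ℚ] E₁) ∧
      a s = (aH x : E₂ ≃ₐ[ℚ] E₂)) (hindexH : aH.range.index ≠ 0)
    {p : ℕ} [hp : Fact p.Prime] (hp2 : p ≠ 2) (f : E₁ ≃ₐ[ℚ] E₁) (θ : V →* ℤ_[p]ˣ)
    (hθ : Continuous θ) (T : Set (HeightOneSpectrum (𝓞 F))) (hT : T.Infinite)
    (hkill : ∀ v ∈ T, ∃ (O : ValuationSubring E₁) (O₂ : ValuationSubring E₂) (r : ℕ)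
      (φ : E₁ ≃ₐ[ℚ] E₁), IsCenter O v ∧ r.Prime ∧ (r : E₁) ∈ O.nonunits ∧ Stab O φ ∧
      ActsPow O φ r ∧ φ⁻¹ * f ∈ H ∧ (∀ s, Stab O s → Stab O₂ (a s)) ∧
      (∀ y : V, Stab O₂ (y : E₂ ≃ₐ[ℚ] E₂) → θ y = 1) ∧ (∀ s, Stab O₂ s → s ∈ V))
    (c : E₂ ≃ₐ[ℚ] E₂) (hc : c ∈ CC a h₀ f (kk F.fixingSubgroup f)) :
    ∃ m : ℕ, 0 < m ∧ ∀ y : V, M4.act (MonoidAlgebra.of ℤ _ (c : (E₂ ≃ₐ[ℚ] E₂) ⧸ V) - 1) θ y ^ m
      = 1 := by
  have hgal : IsGalois ℚ E₁ := H157.isGalois_closed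
  have hcl : IsAlgClosure ℚ E₁ := ⟨inferInstance, inferInstance⟩
  have hindex := index_ne_zero_of_open _ (isOpen_fix F)
  obtain ⟨m₁, hm₁, hm₁'⟩ := exists_pow_mem H (index_ne_zero_of_open _ hHo)
  set k := kk F.fixingSubgroup f with hkdef
  obtain ⟨hk0, hkmem⟩ := kk_spec hindex f
  rw [← hkdef] at hk0 hkmem
  have hfk : f ^ (k * m₁) ∈ H := by
    rw [pow_mul]
    exact hm₁' _
  set ψ : H →* ℤ_[p]ˣ := Psi aH θ f (k * m₁) with hψdef
  -- continuity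
  have hHF : ∀ x : H, (x : E₁ ≃ₐ[ℚ] E₁) ∈ F.fixingSubgroup := fun x => h₀ (hHle x.2)
  have haHc : Continuous aH := by
    have h1 : ∀ x : H, (aH x : E₂ ≃ₐ[ℚ] E₂) =
        a (IntermediateField.fixingSubgroupEquiv F ⟨x, hHF x⟩) := by
      intro x
      obtain ⟨s, hs, hsa⟩ := haH x
      rw [← hsa]
      congr 1
      ext y
      exact DFunLike.congr_fun hs y
    rw [continuous_induced_rng]
    have h2 : Continuous fun x : H => a (IntermediateField.fixingSubgroupEquiv F ⟨x, hHF x⟩) :=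
      ha.comp ((H244.Kill.continuous_fixingSubgroupEquiv F).comp
        (continuous_subtype_val.subtype_mk _))
    exact h2.congr fun x => (h1 x).symm
  have hconjH : ∀ g : E₁ ≃ₐ[ℚ] E₁, Continuous fun y : H => (MulAut.conjNormal g y : H) := by
    intro g
    rw [continuous_induced_rng]
    have h1 : Continuous fun y : H => g * (y : E₁ ≃ₐ[ℚ] E₁) * g⁻¹ :=
      (continuous_const.mul continuous_subtype_val).mul continuous_const
    exact h1.congr fun y => (MulAut.conjNormal_apply g y).symm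
  have hψc : Continuous ψ := by
    have h1 : Continuous fun x : H =>
        ∏ i ∈ range (k * m₁), θ (aH (MulAut.conjNormal (f ^ i) x)) :=
      continuous_finsetProd _ fun i _ => hθ.comp (haHc.comp (hconjH (f ^ i)))
    exact h1.congr fun x => (Psi_apply aH θ f (k * m₁) x).symm
  -- invariance
  have hinv : ∀ x : H, ψ ⟨f * x * f⁻¹, hH.conj_mem _ x.2 f⟩ = ψ x := by
    intro x
    have h1 := Psi_conj (aM := aH) θ hfk x
    rw [← h1]
    rfl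
  -- the residue characteristics
  set R : Set ℕ := {r | ∃ v ∈ T, ∃ (O : ValuationSubring E₁) (O₂ : ValuationSubring E₂)
      (φ : E₁ ≃ₐ[ℚ] E₁), IsCenter O v ∧ r.Prime ∧ (r : E₁) ∈ O.nonunits ∧ Stab O φ ∧
      ActsPow O φ r ∧ φ⁻¹ * f ∈ H ∧ (∀ s, Stab O s → Stab O₂ (a s)) ∧
      (∀ y : V, Stab O₂ (y : E₂ ≃ₐ[ℚ] E₂) → θ y = 1) ∧ (∀ s, Stab O₂ s → s ∈ V)} with hRdef
  have hR : R.Infinite := by
    intro hfin
    refine hT ((finite_above_set F hfin).subset ?_)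
    intro v hv
    obtain ⟨O, O₂, r, φ, h1, h2, h3, h4⟩ := hkill v hv
    refine ⟨r, ⟨v, hv, O, O₂, φ, h1, h2, h3, h4⟩, h2, ?_⟩
    rw [h1]
    simpa using h3
  obtain ⟨M, hM, hψM⟩ := H244.Kill.normFin E₁ p hp2 H hH hHo ψ hψc f hinv R hR (by
    rintro r ⟨v, -, O, O₂, φ, -, h2, h3, h4, h5, h6, h7, h8, -⟩
    refine ⟨h2, O, φ, h3, h6, h5, fun s hs => ?_⟩
    rw [hψdef, ← H244.Kill.Psi_congr aH θ h6]
    refine H244.Kill.Psi_kills H V aH θ O O₂ ?_ h8 φ h4 (k * m₁) s hs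
    intro x hx
    obtain ⟨t, ht, hta⟩ := haH x
    rw [← hta]
    refine h7 t fun y => ?_
    have h9 : t y = (x : E₁ ≃ₐ[ℚ] E₁) y := DFunLike.congr_fun ht y
    rw [h9]
    exact hx y)
  -- the relation
  let z' : E₁ ≃ₐ[F] E₁ := F.fixingSubgroupEquiv ⟨f ^ k, hkmem⟩
  have hz' : z'.restrictScalars ℚ = f ^ k := rfl
  -- `a z' ∈ V`
  have hzV : a z' ∈ V := by
    obtain ⟨v, hv⟩ := hT.nonempty
    obtain ⟨O, O₂, r, φ, h1, h2, h3, h4, h5, h6, h7, -, h9⟩ := hkill v hv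
    have hpow := pow_mem_congr h6 k
    have hφk : φ ^ k ∈ F.fixingSubgroup := by
      have h8 := mul_mem hkmem (inv_mem (hHF ⟨_, hpow⟩))
      rw [mul_inv_rev, inv_inv, mul_inv_cancel_left] at h8
      exact h8
    let s : E₁ ≃ₐ[F] E₁ := F.fixingSubgroupEquiv ⟨φ ^ k, hφk⟩
    have hs : s.restrictScalars ℚ = φ ^ k := rfl
    have hsO : Stab O s := fun x => (Stab.pow h4 k) x
    have hsV : a s ∈ V := h9 _ (h7 s hsO)
    have hzs : (a s)⁻¹ * a z' ∈ V := by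
      obtain ⟨w, hw, hw'⟩ := haH ⟨_, hpow⟩
      have : w = s⁻¹ * z' := by
        apply restrictScalars_inj F
        show w.restrictScalars ℚ = _
        rw [hw, map_mul, map_inv]
        show (φ ^ k)⁻¹ * f ^ k = (s.restrictScalars ℚ)⁻¹ * z'.restrictScalars ℚ
        rw [hz', hs]
      rw [← map_inv, ← map_mul, ← this, hw']
      exact Subtype.prop _
    have := mul_mem hsV hzs
    rwa [mul_inv_cancel_left] at this
  obtain ⟨n, hn, rfl⟩ := hc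
  let n' : E₁ ≃ₐ[F] E₁ := F.fixingSubgroupEquiv ⟨n, h₀ n.2⟩
  have hn' : a n' = resH h₀ (aG a) n := rfl
  obtain ⟨M', hM', hrel⟩ := H566.rel_direct (ι := F.fixingSubgroup.subtype.comp (H157.toFix F))
    (a := a) (f := f) (restrictScalars_inj F) haH hindexH θ hk0 (z' := z') hz' hM
    (m := m₁) (fun x => by
      have h1 := hψM x
      rw [hψdef, Psi_apply] at h1
      exact h1) (n := n'⁻¹) (by
      intro j hj0 hjk
      have h1 := (mem_Nphi.1 (inv_mem hn)) j hj0 hjk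
      refine ⟨F.fixingSubgroupEquiv ⟨_, h₀ (MulAut.conjNormal (f ^ j) n⁻¹ : H₀).2⟩, rfl, h1⟩)
  refine ⟨m₁ * M', Nat.mul_pos hm₁ hM', fun y => ?_⟩
  have hF : (∏ t ∈ range m₁, H566.act (a z' ^ t)⁻¹ θ) = θ ^ m₁ := by
    rw [Finset.prod_congr rfl (g := fun _ => θ), Finset.prod_const, card_range]
    intro t _
    exact act_mem (inv_mem (pow_mem hzV t)) θ
  rw [hF, map_inv, inv_inv, act_pow, ← div_pow, ← pow_mul, hn'] at hrel
  rw [act_sub_one, ← MonoidHom.div_apply, ← MonoidHom.pow_apply, hrel]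
  rfl

end Vale.Agent.P024.H566.AllB
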